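import Vale.Agent.P144Z.KP.NSub

/-!
# Exponential and logarithm for a norm on a subalgebra
-/

namespace Vale.Agent.P144Z

variable {𝒜 : Type} [NormedCommRing 𝒜] [NormedAlgebra ℝ 𝒜] [FiniteDimensional ℝ 𝒜]

/-- B1: exponential and logarithm for a norm on a subalgebra. -/
theorem sub_exp_log (R : Subalgebra ℝ 𝒜) (N : 𝒜 → ℝ) (h0 : ∀ F, 0 ≤ N F)
    (hadd : ∀ F ∈ R, ∀ G ∈ R, N (F + G) ≤ N F + N G)
    (hsmul : ∀ c : ℝ, ∀ F ∈ R, N (c • F) = |c| * N F)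
    (hmul : ∀ F ∈ R, ∀ G ∈ R, N (F * G) ≤ N F * N G) (h1 : N 1 ≤ 1)
    (hdef : ∀ F ∈ R, N F = 0 → F = 0) :
    (∀ F ∈ R, NormedSpace.exp F ∈ R ∧ N (NormedSpace.exp F - 1) ≤ Real.exp (N F) - 1) ∧
    ∀ y ∈ R, N y ≤ 1 / 2 → ∃ g ∈ R, NormedSpace.exp g = 1 + y ∧ N g ≤ 2 * N y := by
  have _ := h1
  let n : KP.AlgNorm 𝒜 := ⟨R, N, hadd, hsmul, hmul, hdef⟩
  refine ⟨fun F hF => ?_, fun y hy hN => ?_⟩
  · have h2 : n.val (NormedSpace.exp (n.elt F hF)) = NormedSpace.exp F := n.map_exp n.val _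
    refine ⟨h2 ▸ n.val_mem _, ?_⟩
    have h3 := KP.norm_exp_sub_one_le (n.elt F hF)
    rw [n.norm_def, n.norm_def, map_sub, map_one, h2] at h3
    exact h3
  · have h2 : ‖n.elt y hy‖ = N y := rfl
    have h3 : ‖n.elt y hy‖ ≤ 1 / 2 := h2 ▸ hN
    refine ⟨n.val (KP.lg (n.elt y hy)), n.val_mem _, ?_, ?_⟩
    · rw [← n.map_exp n.val, KP.exp_lg (by linarith), map_add, map_one, n.val_elt]
    · have h4 := KP.norm_lg_sub_le h3
      have h5 := norm_sub_norm_le (KP.lg (n.elt y hy)) (n.elt y hy)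
      have h6 := h0 y
      change ‖KP.lg (n.elt y hy)‖ ≤ 2 * N y
      rw [h2] at h4 h5
      nlinarith

end Vale.Agent.P144Z
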